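import Vale.Agent.Chai.LTactR

/-!
# P217 / LTactS: existence of the action of `Aut(Γ_n)` on `E_0`

OWNER: helper9
-/

namespace Chai

open MvPowerSeries Finsupp

/-- the inverse of an isomorphism of formal groups -/
theorem IsIsoFG.exists_symm {R : Type*} [CommRing R] {γ : PowerSeries R} {F G : FormalGroup R}
    (h : IsIsoFG γ F G) : ∃ δ : PowerSeries R, IsIsoFG δ G F ∧ γ.subst δ = PowerSeries.X ∧
      δ.subst γ = PowerSeries.X := by
  obtain ⟨⟨h0, hh⟩, hu⟩ := h
  have hR : γ.subst (γ.substInvOfIsUnit hu) = PowerSeries.X :=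
    PowerSeries.subst_substInvOfIsUnit_right _ h0 hu
  have hL : (γ.substInvOfIsUnit hu).subst γ = PowerSeries.X :=
    PowerSeries.subst_substInvOfIsUnit_left _ h0 hu
  have hδ0 : PowerSeries.constantCoeff (γ.substInvOfIsUnit hu) = 0 :=
    PowerSeries.constantCoeff_substInvOfIsUnit _ hu
  have hδ1 : IsUnit (PowerSeries.coeff 1 (γ.substInvOfIsUnit hu)) := by
    rw [PowerSeries.coeff_one_substInvOfIsUnit]
    exact Units.isUnit _
  generalize γ.substInvOfIsUnit hu = δ at *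
  have e0 := constantCoeff_X (R := R) (0 : Fin 2)
  have e1 := constantCoeff_X (R := R) (1 : Fin 2)
  have hδs := PowerSeries.HasSubst.of_constantCoeff_zero' hδ0
  have hγs := PowerSeries.HasSubst.of_constantCoeff_zero' h0
  have d0 := ccs1 e0 hδ0
  have d1 := ccs1 e1 hδ0
  have hF := constantCoeff_pair d0 d1 F.zero_constantCoeff
  have hX : ∀ {a : MvPowerSeries (Fin 2) R}, constantCoeff a = 0 →
      γ.subst (δ.subst a) = a := by
    intro a ha
    have h1 := PowerSeries.subst_comp_subst_apply hδs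
      (PowerSeries.HasSubst.of_constantCoeff_zero ha) γ
    rw [← h1, hR, PowerSeries.subst_X (PowerSeries.HasSubst.of_constantCoeff_zero ha)]
  have hX' : ∀ {a : MvPowerSeries (Fin 2) R}, constantCoeff a = 0 →
      δ.subst (γ.subst a) = a := by
    intro a ha
    have h1 := PowerSeries.subst_comp_subst_apply hγs
      (PowerSeries.HasSubst.of_constantCoeff_zero ha) δ
    rw [← h1, hL, PowerSeries.subst_X (PowerSeries.HasSubst.of_constantCoeff_zero ha)]
  refine ⟨δ, ⟨⟨hδ0, ?_⟩, hδ1⟩, hR, hL⟩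
  have h2 := IsHom.subst (F := F) (G := G) ⟨h0, hh⟩ d0 d1
  rw [hX e0, hX e1] at h2
  have hXX : (![(X 0 : MvPowerSeries (Fin 2) R), X 1] : Fin 2 → MvPowerSeries (Fin 2) R) = X := by
    funext i; fin_cases i <;> rfl
  rw [hXX, subst_self] at h2
  have h3 : PowerSeries.subst (γ.subst (F.toPowerSeries.subst
      ![δ.subst (X 0 : MvPowerSeries (Fin 2) R), δ.subst (X 1 : MvPowerSeries (Fin 2) R)])) δ
      = PowerSeries.subst G.toPowerSeries δ := by rw [h2]; rfl
  rw [hX' hF] at h3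
  exact h3.symm

variable {p : ℕ} [Fact p.Prime] {n : ℕ}

/-- every automorphism of `Γ_n` lifts to an isomorphism from some `F_x` to the universal deformation -/
theorem exists_lift_iso (hn : 1 ≤ n) {γ : PowerSeries (GaloisField p n)}
    (hγ : IsIsoFG γ (hazF p (prm n 0)) (hazF p (prm n 0))) :
    ∃ (x : ℕ → E0 p n) (ψ : PowerSeries (E0 p n)), (∀ j, x j ∈ IE p n 1) ∧
      IsIsoFG ψ (hazF p (prm n x)) (univF p n) ∧ ψ.map (resE p n) = γ := by
  obtain ⟨h, hh, h0⟩ : ∃ b : PowerSeries (E0 p n), MvPowerSeries.map (resE p n) b = γ ∧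
      MvPowerSeries.constantCoeff b = 0 :=
    exists_lift_cc (sE p n (i := 1) le_rfl 0 (by simp)) (resE_surjective p n) γ hγ.1.1
  have hh' : PowerSeries.map (resE p n) h = γ := hh
  have h0' : PowerSeries.constantCoeff h = 0 := h0
  have h1 : resE p n (PowerSeries.coeff 1 h) = PowerSeries.coeff 1 γ := by
    rw [← hh', PowerSeries.coeff_map]
  have hγ1 : PowerSeries.coeff 1 γ ≠ 0 := hγ.2.ne_zero
  have hD : JV (IE p n 1) (defU (univF p n) (univF p n) h).val := by
    have h2 := gam_defU_map_eq_zero (F := univF p n) (φ := resE p n) h0' (by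
      rw [hh', univF_map_res]; exact hγ.1)
    intro d
    rw [IE_one, mE, RingHom.mem_ker, ← coeff_map, h2, map_zero]
  obtain ⟨x, ψ, hx, hψ0, hψ, hD0⟩ := exists_limit_c hn (univF p n) (i := 1) le_rfl
    (uE p n) h (uE_mem_IE p n) h0' (by rw [h1]; exact hγ1) hD
  have hψ1 : ψ.map (resE p n) = γ := by
    rw [← hh']
    ext1 e
    rw [PowerSeries.coeff_map, PowerSeries.coeff_map]
    apply res_of_IE le_rfl
    rw [← map_sub]
    exact hψ _
  refine ⟨x, ψ, fun j => ?_, ⟨isHom_of_defU hψ0 hD0, isUnit_of_resE ?_⟩, hψ1⟩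
  · have := (IE p n 1).add_mem (hx j) (uE_mem_IE p n j)
    rwa [sub_add_cancel] at this
  · have h3 : resE p n (PowerSeries.coeff 1 ψ) = PowerSeries.coeff 1 γ := by
      rw [← hψ1, PowerSeries.coeff_map]
    rw [h3]
    exact hγ1

theorem huE {j : ℕ} (h1 : 1 ≤ j) (h2 : j < n) : uE p n j = X ⟨j - 1, by omega⟩ := by
  unfold uE
  rw [dif_pos ⟨h1, h2⟩]

/-- the continuous `W`-algebra endomorphism belonging to an automorphism of `Γ_n` -/
theorem exists_end (hn : 1 ≤ n) {γ : PowerSeries (GaloisField p n)}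
    (hγ : IsIsoFG γ (hazF p (prm n 0)) (hazF p (prm n 0))) :
    ∃ (φ : E0 p n →+* E0 p n) (ψ : PowerSeries (E0 p n)),
      (∀ w, φ (MvPowerSeries.C w) = MvPowerSeries.C w) ∧
      (∀ i a, a ∈ IE p n i → φ a ∈ IE p n i) ∧
      IsIsoFG ψ ((univF p n).map φ) (univF p n) ∧ ψ.map (resE p n) = γ := by
  obtain ⟨x, ψ, hx, hψ, hres⟩ := exists_lift_iso hn hγ
  obtain ⟨φ, hX, hC, hc⟩ := exists_endx (p := p) (n := n) (x := fun j => x (j.1 + 1))
    (fun j => hx _)
  refine ⟨φ, ψ, hC, hc, ?_, hres⟩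
  have hF : (univF p n).map φ = hazF p (prm n x) := by
    unfold univF
    rw [hazF_map]
    congr 1
    funext j
    unfold prm
    split_ifs with h1 h2
    · rw [huE h1.1 h1.2, hX]
      congr 1
      show j - 1 + 1 = j
      omega
    · exact map_one _
    · exact map_zero _
  rw [hF]
  exact hψ

theorem resE_of_cont {φ : E0 p n →+* E0 p n} (hC : ∀ w, φ (MvPowerSeries.C w) = MvPowerSeries.C w)
    (hc : ∀ i a, a ∈ IE p n i → φ a ∈ IE p n i) (a : E0 p n) :
    resE p n (φ a) = resE p n a := by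
  have h1 : a - MvPowerSeries.C (MvPowerSeries.constantCoeff a) ∈ IE p n 1 := by
    rw [IE_one, mE, RingHom.mem_ker, map_sub, sub_eq_zero, resE, RingHom.comp_apply,
      RingHom.comp_apply, MvPowerSeries.constantCoeff_C]
  have h2 := hc 1 _ h1
  rw [map_sub, hC] at h2
  have h3 := sub_mem h2 h1
  rw [sub_sub_sub_cancel_right] at h3
  exact res_of_IE le_rfl h3

/-- composition of two endomorphisms lifting inverse automorphisms -/
theorem end_comp_eq_id (hn : 1 ≤ n) {γ δ : PowerSeries (GaloisField p n)}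
    {φ φ' : E0 p n →+* E0 p n} {ψ ψ' : PowerSeries (E0 p n)}
    (hC : ∀ w, φ (MvPowerSeries.C w) = MvPowerSeries.C w)
    (hc : ∀ i a, a ∈ IE p n i → φ a ∈ IE p n i)
    (hψ : IsIsoFG ψ ((univF p n).map φ) (univF p n)) (hγ : ψ.map (resE p n) = γ)
    (hC' : ∀ w, φ' (MvPowerSeries.C w) = MvPowerSeries.C w)
    (hc' : ∀ i a, a ∈ IE p n i → φ' a ∈ IE p n i)
    (hψ' : IsIsoFG ψ' ((univF p n).map φ') (univF p n)) (hδ : ψ'.map (resE p n) = δ)
    (hδγ : δ.subst γ = PowerSeries.X) (a : E0 p n) : φ' (φ a) = a := by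
  have h1 : IsHom (ψ.map φ') (((univF p n).map φ).map φ') ((univF p n).map φ') := hψ.1.map φ'
  have h2 := hψ'.1.comp h1
  have hF : ((univF p n).map φ).map φ' = hazF p (prm n fun j => φ' (φ (uE p n j))) := by
    unfold univF
    rw [hazF_map, hazF_map]
    congr 1
    funext j
    unfold prm
    split_ifs
    · rfl
    · rw [map_one, map_one]
    · rw [map_zero, map_zero]
  rw [hF] at h2
  have hres : (ψ.map φ').map (resE p n) = γ := by
    rw [← hγ]
    ext1 e
    rw [PowerSeries.coeff_map, PowerSeries.coeff_map, PowerSeries.coeff_map, resE_of_cont hC' hc']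
  have h0 : PowerSeries.constantCoeff (ψ.map φ') = 0 := h1.1
  have h3 : (ψ'.subst (ψ.map φ')).map (resE p n) = (PowerSeries.X : PowerSeries (GaloisField p n)) := by
    have h4 := map_subst1 (resE p n) ψ' (a := ψ.map φ') h0
    have h5 : (ψ'.subst (ψ.map φ')).map (resE p n)
        = PowerSeries.subst ((ψ.map φ').map (resE p n)) (ψ'.map (resE p n)) := h4
    rw [h5, hres, hδ]
    exact hδγ
  obtain ⟨hu, -⟩ := rigid hn (fun j _ _ => hc' 1 _ (hc 1 _ (uE_mem_IE p n j))) h2 h3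
  have h6 := end_ext (F := φ'.comp φ) (fun j => ?_) (fun w => ?_) (fun i a ha => ?_) a
  · exact h6
  · have hj : j.1 + 1 < n := by have := j.2; omega
    have h7 := hu (j.1 + 1) (by omega) hj
    rw [huE (by omega) hj] at h7
    exact h7
  · rw [RingHom.comp_apply, hC, hC']
  · exact hc' i _ (hc i a ha)

/-- every automorphism of `Γ_n` acts on `E_0` -/
theorem exists_acts_one (hn : 1 ≤ n) {γ : PowerSeries (GaloisField p n)}
    (hγ : IsIsoFG γ (hazF p (prm n 0)) (hazF p (prm n 0))) :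
    ∃ φ : E0 p n ≃+* E0 p n, (∀ w, φ (MvPowerSeries.C w) = MvPowerSeries.C w) ∧
      (∀ i a, a ∈ IE p n i → φ a ∈ IE p n i) ∧ Acts (univF p n) (RingEquiv.refl _) γ φ := by
  obtain ⟨δ, hδ, h1, h2⟩ := hγ.exists_symm
  obtain ⟨φ, ψ, hC, hc, hψ, hr⟩ := exists_end hn hγ
  obtain ⟨φ', ψ', hC', hc', hψ', hr'⟩ := exists_end hn hδ
  have e1 := end_comp_eq_id hn hC hc hψ hr hC' hc' hψ' hr' h2
  have e2 := end_comp_eq_id hn hC' hc' hψ' hr' hC hc hψ hr h1
  obtain ⟨Φ, hΦ⟩ : ∃ Φ : E0 p n ≃+* E0 p n, ∀ a, Φ a = φ a :=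
    ⟨RingEquiv.ofBijective φ ⟨fun a b hab => by rw [← e1 a, ← e1 b, hab],
      fun b => ⟨φ' b, e2 b⟩⟩, fun a => rfl⟩
  have hΦ' : (Φ : E0 p n →+* E0 p n) = φ := RingHom.ext hΦ
  refine ⟨Φ, fun w => by rw [hΦ]; exact hC w, fun i a ha => by rw [hΦ]; exact hc i a ha,
    fun a => ?_, ψ, ?_, hr⟩
  · rw [hΦ]
    exact resE_of_cont hC hc a
  · rw [hΦ']
    exact hψ

end Chai
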