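import Vale.Agent.Chai.FinalDefs
import Vale.Agent.Chai.LTact1
import Vale.Agent.Chai.LTactS

/-!
# P217 / LTact: the extended Morava stabilizer group acts on `E_0` (existence and uniqueness)

OWNER: helper9

Not needed for the proof of the main theorem; it shows that `GnInvariant` in the final statement is
invariance under an honest action.
-/

namespace Chai

open MvPowerSeries

variable {p : ℕ} [Fact p.Prime] {n : ℕ}

/-- the coefficientwise action of a field automorphism -/
theorem exists_frob (σ : GaloisField p n ≃+* GaloisField p n) :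
    ∃ Φ : E0 p n ≃+* E0 p n, (∀ a, resE p n (Φ a) = σ (resE p n a)) ∧
      (univF p n).map (Φ : E0 p n →+* E0 p n) = univF p n := by
  obtain ⟨f, hf⟩ : ∃ f : WittVector p (GaloisField p n) →+* WittVector p (GaloisField p n),
    f = WittVector.map (σ : GaloisField p n →+* GaloisField p n) := ⟨_, rfl⟩
  obtain ⟨g, hg⟩ : ∃ g : WittVector p (GaloisField p n) →+* WittVector p (GaloisField p n),
    g = WittVector.map (σ.symm : GaloisField p n →+* GaloisField p n) := ⟨_, rfl⟩
  have hfg : ∀ w, f (g w) = w := by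
    intro w
    rw [hf, hg]
    ext m
    rw [WittVector.map_coeff, WittVector.map_coeff]
    exact σ.apply_symm_apply _
  have hgf : ∀ w, g (f w) = w := by
    intro w
    rw [hf, hg]
    ext m
    rw [WittVector.map_coeff, WittVector.map_coeff]
    exact σ.symm_apply_apply _
  obtain ⟨Φ, hΦ⟩ : ∃ Φ : E0 p n ≃+* E0 p n, ∀ a, Φ a = MvPowerSeries.map f a :=
    ⟨RingEquiv.ofBijective (MvPowerSeries.map f)
      ⟨fun a b hab => by
        ext1 d
        have h1 := congrArg (coeff d) hab
        rw [coeff_map, coeff_map] at h1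
        rw [← hgf (coeff d a), h1, hgf],
      fun b => ⟨MvPowerSeries.map g b, by
        ext1 d
        rw [coeff_map, coeff_map, hfg]⟩⟩, fun a => rfl⟩
  refine ⟨Φ, fun a => ?_, ?_⟩
  · rw [hΦ, resE, RingHom.comp_apply, RingHom.comp_apply, MvPowerSeries.constantCoeff_map, hf]
    show (WittVector.map (σ : GaloisField p n →+* GaloisField p n) _).coeff 0 = _
    rw [WittVector.map_coeff]
    rfl
  · unfold univF
    rw [hazF_map]
    congr 1
    funext j
    have hu : Φ (uE p n j) = uE p n j := by
      rw [hΦ]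
      unfold uE
      split_ifs
      · exact MvPowerSeries.map_X _ _
      · exact map_zero _
    unfold prm
    split_ifs
    · exact hu
    · exact map_one _
    · exact map_zero _

theorem exists_acts (hn : 1 ≤ n) (σ : GaloisField p n ≃+* GaloisField p n)
    {γ : PowerSeries (GaloisField p n)} (hγ : IsIsoFG γ (hazF p (prm n 0)) (hazF p (prm n 0))) :
    ∃ φ, Acts (univF p n) σ γ φ := by
  obtain ⟨φ, -, -, hres, ψ, hψ, hr⟩ := exists_acts_one hn hγ
  obtain ⟨Φ, h1, h2⟩ := exists_frob σ
  refine ⟨Φ.trans φ, fun a => ?_, ψ, ?_, hr⟩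
  · rw [RingEquiv.trans_apply, hres, RingEquiv.refl_apply, h1]
  · have h3 : (univF p n).map ((Φ.trans φ : E0 p n ≃+* E0 p n) : E0 p n →+* E0 p n)
        = (univF p n).map (φ : E0 p n →+* E0 p n) := by
      conv_rhs => rw [← h2, fg_map_map]
      rfl
    rw [h3]
    exact hψ

theorem pow_mE_le (i : ℕ) : mE p n ^ i ≤ IE p n i := by
  induction i with
  | zero => rw [IE_zero]; exact le_top
  | succ i ih =>
    rw [pow_succ, Ideal.mul_le]
    intro a ha b hb
    rw [← IE_one] at hb
    exact IE_mul p n (ih ha) hb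

theorem IE_eq_pow (i : ℕ) : IE p n i = mE p n ^ i := le_antisymm (IE_le_pow p n i) (pow_mE_le i)

theorem pow_p_sub_mem {i : ℕ} (hi : 1 ≤ i) {a b : E0 p n} (h : a - b ∈ IE p n i) :
    a ^ p - b ^ p ∈ IE p n (i + 1) := by
  have h1 : a ^ p - b ^ p = (∑ j ∈ Finset.range p, a ^ j * b ^ (p - 1 - j)) * (a - b) :=
    (Commute.all a b).geom_sum₂_mul p |>.symm
  have h2 : (∑ j ∈ Finset.range p, a ^ j * b ^ (p - 1 - j)) ∈ IE p n 1 := by
    have h3 : (∑ j ∈ Finset.range p, a ^ j * b ^ (p - 1 - j)) - (p : E0 p n) * b ^ (p - 1)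
        ∈ IE p n 1 := by
      have h4 : (∑ j ∈ Finset.range p, a ^ j * b ^ (p - 1 - j)) - (p : E0 p n) * b ^ (p - 1)
          = ∑ j ∈ Finset.range p, (a ^ j - b ^ j) * b ^ (p - 1 - j) := by
        have h5 : (p : E0 p n) * b ^ (p - 1) = ∑ j ∈ Finset.range p, b ^ j * b ^ (p - 1 - j) := by
          rw [Finset.sum_congr rfl (g := fun _ => b ^ (p - 1)), Finset.sum_const,
            Finset.card_range, nsmul_eq_mul]
          intro j hj
          rw [← pow_add]
          congr 1
          have := Finset.mem_range.1 hj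
          omega
        rw [h5, ← Finset.sum_sub_distrib]
        exact Finset.sum_congr rfl fun j _ => by ring
      rw [h4]
      refine sum_mem fun j _ => ?_
      obtain ⟨c, hc⟩ := sub_dvd_pow_sub_pow a b j
      rw [hc]
      have := IE_anti p n hi h
      exact Ideal.mul_mem_right _ _ (Ideal.mul_mem_right _ _ this)
    have h6 : (p : E0 p n) * b ^ (p - 1) ∈ IE p n 1 := Ideal.mul_mem_right _ _ (p_mem_IE p n)
    have := add_mem h3 h6
    rwa [sub_add_cancel] at this
  rw [h1, add_comm i 1]
  exact IE_mul p n h2 h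

theorem pow_pp_sub_mem {a b : E0 p n} (h : a - b ∈ IE p n 1) (m : ℕ) :
    a ^ p ^ m - b ^ p ^ m ∈ IE p n (m + 1) := by
  induction m with
  | zero => rw [pow_zero, pow_one, pow_one]; exact h
  | succ m ih =>
    rw [pow_succ p m, pow_mul, pow_mul]
    exact pow_p_sub_mem (by omega) ih

/-- an endomorphism of `E_0` which is the identity on the residue field fixes `W(k)` -/
theorem fix_C {θ : E0 p n →+* E0 p n} (hθ : ∀ a, resE p n (θ a) = resE p n a)
    (w : WittVector p (GaloisField p n)) : θ (MvPowerSeries.C w) = MvPowerSeries.C w := by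
  have hmem : ∀ w : WittVector p (GaloisField p n),
      θ (MvPowerSeries.C w) - MvPowerSeries.C w ∈ IE p n 1 := by
    intro w
    rw [IE_one, mE, RingHom.mem_ker, map_sub, hθ, sub_self]
  -- Teichmüller representatives
  have hT : ∀ a : GaloisField p n,
      θ (MvPowerSeries.C (WittVector.teichmuller p a)) = MvPowerSeries.C (WittVector.teichmuller p a) := by
    intro a
    rw [← sub_eq_zero]
    refine IE_inf p n fun m => ?_
    obtain ⟨b, hb⟩ : ∃ b : GaloisField p n, b ^ p ^ m = a := by
      refine ⟨(iterateFrobeniusEquiv (GaloisField p n) p m).symm a, ?_⟩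
      rw [← iterateFrobeniusEquiv_def, RingEquiv.apply_symm_apply]
    have h1 := pow_pp_sub_mem (hmem (WittVector.teichmuller p b)) m
    rw [← map_pow, ← map_pow, ← map_pow, hb] at h1
    exact IE_anti p n (Nat.le_succ m) h1
  have hind : ∀ m, ∀ w : WittVector p (GaloisField p n),
      θ (MvPowerSeries.C w) - MvPowerSeries.C w ∈ IE p n m := by
    intro m
    induction m with
    | zero => intro w; rw [IE_zero]; trivial
    | succ m ih =>
      intro w
      obtain ⟨w', hw'⟩ : ∃ w', w = WittVector.teichmuller p (w.coeff 0) + p * w' := by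
        have h1 : (p : WittVector p (GaloisField p n)) ∣ w - WittVector.teichmuller p (w.coeff 0) := by
          rw [dvd_iff_cc, map_sub, sub_eq_zero]
          show w.coeff 0 = (WittVector.teichmuller p (w.coeff 0)).coeff 0
          rw [WittVector.teichmuller_coeff_zero]
        obtain ⟨w', hw'⟩ := h1
        exact ⟨w', by rw [← hw']; ring⟩
      have h2 : θ (MvPowerSeries.C w) - MvPowerSeries.C w
          = (p : E0 p n) * (θ (MvPowerSeries.C w') - MvPowerSeries.C w') := by
        conv_lhs => rw [hw']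
        rw [map_add, map_add, map_mul, map_mul, hT, map_natCast, map_natCast]
        ring
      rw [h2, add_comm m 1]
      exact IE_mul p n (p_mem_IE p n) (ih w')
  rw [← sub_eq_zero]
  exact IE_inf p n fun m => hind m w

theorem acts_unique (hn : 1 ≤ n) {σ : GaloisField p n ≃+* GaloisField p n}
    {γ : PowerSeries (GaloisField p n)} (hγ : IsIsoFG γ (hazF p (prm n 0)) (hazF p (prm n 0)))
    {φ φ' : E0 p n ≃+* E0 p n} (h : Acts (univF p n) σ γ φ) (h' : Acts (univF p n) σ γ φ') :
    φ = φ' := by
  obtain ⟨h1, ψ, hψ, hr⟩ := h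
  obtain ⟨h1', ψ', hψ', hr'⟩ := h'
  obtain ⟨δ, hδ, hδR, hδL⟩ := hψ'.exists_symm
  obtain ⟨θ, hθ⟩ : ∃ θ : E0 p n →+* E0 p n, ∀ a, θ a = φ'.symm (φ a) :=
    ⟨(φ'.symm : E0 p n →+* E0 p n).comp (φ : E0 p n →+* E0 p n), fun a => rfl⟩
  have hsymm : ∀ a, resE p n (φ'.symm a) = σ.symm (resE p n a) := by
    intro a
    rw [RingEquiv.eq_symm_apply, ← h1', RingEquiv.apply_symm_apply]
  have hθr : ∀ a, resE p n (θ a) = resE p n a := by
    intro a
    rw [hθ, hsymm, h1, RingEquiv.symm_apply_apply]
  have hC := fix_C hθr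
  have hc : ∀ i a, a ∈ IE p n i → θ a ∈ IE p n i := by
    intro i a ha
    rw [IE_eq_pow] at ha ⊢
    have h2 : Ideal.map θ (mE p n) ≤ mE p n := by
      rw [Ideal.map_le_iff_le_comap]
      intro b hb
      rw [Ideal.mem_comap, mE, RingHom.mem_ker, hθr]
      exact hb
    have h3 := Ideal.mem_map_of_mem θ ha
    rw [Ideal.map_pow] at h3
    exact Ideal.pow_right_mono h2 i h3
  -- the isomorphism over `θ`
  have e1 : IsHom (δ.subst ψ) ((univF p n).map (φ : E0 p n →+* E0 p n))
      ((univF p n).map (φ' : E0 p n →+* E0 p n)) := hδ.1.comp hψ.1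
  have e2 := e1.map (φ'.symm : E0 p n →+* E0 p n)
  have hF1 : ((univF p n).map (φ : E0 p n →+* E0 p n)).map (φ'.symm : E0 p n →+* E0 p n)
      = hazF p (prm n fun j => θ (uE p n j)) := by
    unfold univF
    rw [hazF_map, hazF_map]
    congr 1
    funext j
    unfold prm
    split_ifs
    · show φ'.symm (φ (uE p n j)) = θ (uE p n j)
      rw [hθ]
    · rw [map_one, map_one]
    · rw [map_zero, map_zero]
  have hF2 : ((univF p n).map (φ' : E0 p n →+* E0 p n)).map (φ'.symm : E0 p n →+* E0 p n)
      = univF p n := by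
    rw [fg_map_map]
    have : (φ'.symm : E0 p n →+* E0 p n).comp (φ' : E0 p n →+* E0 p n) = RingHom.id _ :=
      RingHom.ext fun a => φ'.symm_apply_apply a
    rw [this]
    apply FormalGroup.ext
    rw [FormalGroup.map_toPowerSeries, MvPowerSeries.map_id]
    rfl
  rw [hF1, hF2] at e2
  have hres1 : (δ.subst ψ).map (resE p n) = (PowerSeries.X : PowerSeries (GaloisField p n)) := by
    have h4 : (δ.subst ψ).map (resE p n)
        = PowerSeries.subst (ψ.map (resE p n)) (δ.map (resE p n)) :=
      map_subst1 (resE p n) δ (a := ψ) hψ.1.1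
    have h5 : (δ.subst ψ').map (resE p n)
        = PowerSeries.subst (ψ'.map (resE p n)) (δ.map (resE p n)) :=
      map_subst1 (resE p n) δ (a := ψ') hψ'.1.1
    rw [h4, hr, ← hr', ← h5, hδL]
    exact PowerSeries.map_X _
  have hres : (PowerSeries.map (φ'.symm : E0 p n →+* E0 p n) (δ.subst ψ)).map (resE p n)
      = (PowerSeries.X : PowerSeries (GaloisField p n)) := by
    refine PowerSeries.ext fun e => ?_
    have h6 : resE p n (PowerSeries.coeff e (δ.subst ψ))
        = PowerSeries.coeff e (PowerSeries.X : PowerSeries (GaloisField p n)) :=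
      congrArg (PowerSeries.coeff e) hres1
    show resE p n (φ'.symm (PowerSeries.coeff e (δ.subst ψ))) = _
    rw [hsymm, h6]
    rw [PowerSeries.coeff_X]
    split_ifs
    · exact map_one _
    · exact map_zero _
  obtain ⟨hu, -⟩ := rigid hn (fun j _ _ => hc 1 _ (uE_mem_IE p n j)) e2 hres
  have hid := fun a => end_ext (F := θ) (fun j => by
    have hj : j.1 + 1 < n := by have := j.2; omega
    have h7 := hu (j.1 + 1) (by omega) hj
    rw [huE (by omega) hj] at h7
    exact h7) hC hc a
  refine RingEquiv.ext fun a => ?_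
  have h8 := hid a
  rw [hθ, RingEquiv.symm_apply_eq] at h8
  exact h8

end Chai
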