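import Vale.Agent.Chai.LT
import Vale.Agent.Chai.FinalDefs

/-!
# P217 / LTactA: every automorphism of the Honda group acts on `E_0`

OWNER: helper9

The successive approximation of LTstep / LTlim for a series with arbitrary nonzero derivative.
-/

namespace Chai

open MvPowerSeries Finsupp

section tau

variable {A : Type*} [CommRing A] {k : Type} [Field k] (s : Sx A k)
  {F F' G : FormalGroup A} [F.IsComm] [G.IsComm] {h : PowerSeries A}

theorem defU_change_c [F'.IsComm] (h0 : PowerSeries.constantCoeff h = 0)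
    (hD : JV s.I (defU F G h).val) (hFF : JV s.I (F'.toPowerSeries - F.toPowerSeries))
    (hres : Function.Surjective s.res)
    {S : PowerSeries A} (hS0 : PowerSeries.constantCoeff S = 0) (hS : JV s.I S) :
    JV s.I (defU F' G (G.toPowerSeries.subst ![h, S])).val ∧
    s.L (defU F' G (G.toPowerSeries.subst ![h, S])).val =
      s.L (defU F G h).val - MvPowerSeries.C (s.res (PowerSeries.coeff 1 h)) * s.L (tau F F').val +
        (PowerSeries.subst (X 0 : MvPowerSeries (Fin 2) k) (s.L S) +
          PowerSeries.subst (X 1 : MvPowerSeries (Fin 2) k) (s.L S) -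
          PowerSeries.subst (F.map s.res).toPowerSeries (s.L S)) := by
  set T := (tau F F').val with hT
  have hT0 : constantCoeff T = 0 := cc_tau
  have hTJ : JV s.I T := JV_tau hFF
  have hF0 := F.zero_constantCoeff
  have hF0' := F'.zero_constantCoeff
  have hX : ∀ i : Fin 2, constantCoeff (X i : MvPowerSeries (Fin 2) A) = 0 := constantCoeff_X
  -- values of the new series
  have e1 : ∀ a : MvPowerSeries (Fin 2) A, constantCoeff a = 0 →
      pt G (PowerSeries.subst a (G.toPowerSeries.subst ![h, S] : PowerSeries A))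
        = pt G (h.subst a) + pt G (S.subst a) := by
    intro a ha
    have hs : HasSubst (fun _ : Unit => a) :=
      PowerSeries.HasSubst.const (PowerSeries.HasSubst.of_constantCoeff_zero ha)
    rw [← pt_add (ccs1 ha h0) (ccs1 ha hS0)]
    congr 1
    exact subst_pair_subst h0 hS0 (fun _ => ha) _
  have e2 : defU F' G (G.toPowerSeries.subst ![h, S])
      = (defU F G h + defect F G h F.toPowerSeries T - pt G (h.subst T))
        + (pt G (S.subst (X 0 : MvPowerSeries (Fin 2) A))
          + pt G (S.subst (X 1 : MvPowerSeries (Fin 2) A)) - pt G (S.subst F'.toPowerSeries)) := by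
    have hFX : F.toPowerSeries.subst ![(X 0 : MvPowerSeries (Fin 2) A), X 1] = F.toPowerSeries := by
      have : (![(X 0 : MvPowerSeries (Fin 2) A), X 1] : Fin 2 → MvPowerSeries (Fin 2) A) = X := by
        funext i; fin_cases i <;> rfl
      rw [this, subst_self]; rfl
    have hFX' : F'.toPowerSeries.subst ![(X 0 : MvPowerSeries (Fin 2) A), X 1]
        = F'.toPowerSeries := by
      have : (![(X 0 : MvPowerSeries (Fin 2) A), X 1] : Fin 2 → MvPowerSeries (Fin 2) A) = X := by
        funext i; fin_cases i <;> rfl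
      rw [this, subst_self]; rfl
    unfold defU defect
    rw [hFX, hFX', e1 _ (hX 0), e1 _ (hX 1), e1 _ hF0', hT, tau_eq]
    abel
  have j1 : JV s.I (defect F G h F.toPowerSeries T).val := JV_defect h0 hD hF0 hT0
  obtain ⟨j2, l2⟩ := s.L_subst_right h0 hT0 hTJ
  have j2' : JV s.I (pt G (h.subst T)).val := by rw [pt_val (ccs1 hT0 h0)]; exact j2
  obtain ⟨j3, l3⟩ := L_subst1 s hS (hX 0)
  obtain ⟨j4, l4⟩ := L_subst1 s hS (hX 1)
  obtain ⟨j5, l5⟩ := L_subst1 s hS hF0'
  have j3' : JV s.I (pt G (S.subst (X 0 : MvPowerSeries (Fin 2) A))).val := by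
    rw [pt_val (ccs1 (hX 0) hS0)]; exact j3
  have j4' : JV s.I (pt G (S.subst (X 1 : MvPowerSeries (Fin 2) A))).val := by
    rw [pt_val (ccs1 (hX 1) hS0)]; exact j4
  have j5' : JV s.I (pt G (S.subst F'.toPowerSeries)).val := by
    rw [pt_val (ccs1 hF0' hS0)]; exact j5
  have l1 : s.L (defect F G h F.toPowerSeries T).val = 0 := by
    rw [L_defect s h0 hD hF0 hT0, s.map_res_JV hTJ]
    exact (coc_defect s h0 hD hres).zero _ (by
      rw [constantCoeff_map, hF0, map_zero])
  rw [e2]
  refine ⟨JV.padd (JV.psub (JV.padd hD j1) j2') (JV.psub (JV.padd j3' j4') j5'), ?_⟩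
  rw [s.L_padd (JV.psub (JV.padd hD j1) j2') (JV.psub (JV.padd j3' j4') j5'),
    s.L_psub (JV.padd hD j1) j2', s.L_padd hD j1, s.L_psub (JV.padd j3' j4') j5',
    s.L_padd j3' j4', l1, pt_val (ccs1 hT0 h0), pt_val (ccs1 (hX 0) hS0),
    pt_val (ccs1 (hX 1) hS0), pt_val (ccs1 hF0' hS0), l2, l3, l4, l5,
    add_zero, MvPowerSeries.map_X, MvPowerSeries.map_X]
  have e3 : F'.toPowerSeries.map s.res = (F.map s.res).toPowerSeries :=
    congrArg FormalGroup.toPowerSeries (map_res_eq s hFF)
  rw [e3]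


theorem msubst_C {R : Type*} [CommRing R] {σ υ : Type*} {a : σ → MvPowerSeries υ R}
    (hs : HasSubst a) (c : R) :
    (MvPowerSeries.C c : MvPowerSeries σ R).subst a = MvPowerSeries.C c := by
  rw [← coe_substAlgHom hs]
  exact (substAlgHom hs).commutes c

theorem Coc.Cmul {Γ : FormalGroup k} {τ : MvPowerSeries (Fin 2) k} (h : Coc Γ τ) (c : k) :
    Coc Γ (MvPowerSeries.C c * τ) where
  symm {υ} a b ha hb := by
    have hs := hasSubst_pair ha hb
    have hs' := hasSubst_pair hb ha
    rw [subst_mul hs, subst_mul hs', h.symm a b ha hb, msubst_C hs, msubst_C hs']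
  zero {υ} a ha := by
    have hs := hasSubst_pair ha (map_zero (constantCoeff (σ := υ) (R := k)))
    rw [subst_mul hs, h.zero a ha, mul_zero]
  assoc {υ} a b c' ha hb hc := by
    have hab := constantCoeff_pair ha hb Γ.zero_constantCoeff
    have hbc := constantCoeff_pair hb hc Γ.zero_constantCoeff
    rw [subst_mul (hasSubst_pair ha hb), subst_mul (hasSubst_pair hab hc),
      subst_mul (hasSubst_pair hb hc), subst_mul (hasSubst_pair ha hbc),
      msubst_C (hasSubst_pair ha hb), msubst_C (hasSubst_pair hab hc),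
      msubst_C (hasSubst_pair hb hc), msubst_C (hasSubst_pair ha hbc), ← mul_add, ← mul_add,
      h.assoc a b c' ha hb hc]

theorem cocN_Cmul (Γ : FormalGroup k) (τ : MvPowerSeries (Fin 2) k) (c : k) (m : ℕ) :
    cocN Γ (MvPowerSeries.C c * τ) m = PowerSeries.C c * cocN Γ τ m := by
  unfold cocN
  rw [Finset.mul_sum]
  refine Finset.sum_congr rfl (fun i _ => ?_)
  have hs : HasSubst (![mulPS Γ i, (PowerSeries.X : PowerSeries k)] :
      Fin 2 → MvPowerSeries Unit k) :=
    hasSubst_pair (constantCoeff_mulPS Γ i) PowerSeries.constantCoeff_X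
  rw [subst_mul hs, msubst_C hs]
  rfl

end tau

variable {p : ℕ} [Fact p.Prime] {n : ℕ}

/-- one step -/
theorem step_c (hn : 1 ≤ n) (G : FormalGroup (E0 p n)) [G.IsComm] {i : ℕ} (hi : 1 ≤ i)
    (x : ℕ → E0 p n) (h : PowerSeries (E0 p n)) (hx : ∀ j, x j ∈ IE p n 1)
    (h0 : PowerSeries.constantCoeff h = 0) (h1 : resE p n (PowerSeries.coeff 1 h) ≠ 0)
    (hD : JV (IE p n i) (defU (hazF p (prm n x)) G h).val) :
    ∃ (x' : ℕ → E0 p n) (h' : PowerSeries (E0 p n)),
      (∀ j, x' j - x j ∈ IE p n i) ∧ PowerSeries.constantCoeff h' = 0 ∧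
      JV (IE p n i) (h' - h) ∧ JV (IE p n (i + 1)) (defU (hazF p (prm n x')) G h').val := by
  classical
  have hres : Function.Surjective (resE p n) := resE_surjective p n
  obtain ⟨c, hc⟩ : ∃ c, c = resE p n (PowerSeries.coeff 1 h) := ⟨_, rfl⟩
  have hc0 : c ≠ 0 := hc ▸ h1
  set F := hazF p (prm n x) with hF
  set Γ := F.map (resE p n) with hΓ
  have hres0 : ∀ j, resE p n (x j) = 0 := by
    intro j
    have := hx j
    rw [IE_one] at this
    exact this
  have hΓ' : Γ = hazF p (prm n (0 : ℕ → GaloisField p n)) := by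
    rw [hΓ, hF, hazF_map]
    congr 1
    funext j
    unfold prm
    split_ifs
    · rw [hres0]; rfl
    · rw [map_one]
    · rw [map_zero]
  have hΓp : mulPS Γ p = (PowerSeries.X : PowerSeries (GaloisField p n)) ^ p ^ n := by
    rw [hΓ']
    exact mulPS_honda p n hn
  -- cocycles of the defect
  let τ : (Fin (n - 1) →₀ ℕ) → MvPowerSeries (Fin 2) (GaloisField p n) := fun d e =>
    lam p n i d (coeff e (defU F G h).val)
  have hτ : ∀ d, d.degree ≤ i → Coc Γ (τ d) := fun d hd =>
    coc_defect (sE p n hi d hd) h0 hD hres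
  -- new parameters
  have hmk : ∀ j, ∃ y ∈ IE p n i, ∀ d : Fin (n - 1) →₀ ℕ, d.degree ≤ i →
      lam p n i d y = c⁻¹ * PowerSeries.coeff (p ^ j) (cocN Γ (τ d) p) := fun j =>
    exists_mkI i (fun d => c⁻¹ * PowerSeries.coeff (p ^ j) (cocN Γ (τ d) p))
  choose y hyI hy using hmk
  set x' : ℕ → E0 p n := fun j => x j + y j with hx'
  have hxx : ∀ j, x' j - x j = y j := fun j => by rw [hx']; ring
  set F' := hazF p (prm n x') with hF'
  have hFF : JV (IE p n i) (F'.toPowerSeries - F.toPowerSeries) :=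
    hazF_sub_JV p _ (prm_sub_mem _ n (fun j _ _ => by rw [hxx]; exact hyI j))
  -- the corrected cocycle
  let τ' : (Fin (n - 1) →₀ ℕ) → MvPowerSeries (Fin 2) (GaloisField p n) := fun d e =>
    lam p n i d (coeff e (tau F F').val)
  have hτ' : ∀ d, d.degree ≤ i → Coc Γ (τ' d) := fun d hd =>
    coc_tau (sE p n hi d hd) hFF hres
  have hN' : ∀ d, d.degree ≤ i → cocN Γ (τ' d) p = ∑ j ∈ Finset.Ico 1 n,
      PowerSeries.C (lam p n i d (x' j - x j)) *
        (PowerSeries.X : PowerSeries (GaloisField p n)) ^ p ^ j := fun d hd =>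
    cocN_haz p (sE p n hi d hd) hres hn (fun j _ _ => hres0 j)
      (fun j _ _ => by rw [hxx]; exact hyI j)
  have hexact : ∀ d : Fin (n - 1) →₀ ℕ, ∃ θ : PowerSeries (GaloisField p n),
      PowerSeries.constantCoeff θ = 0 ∧ (d.degree ≤ i →
        τ d - MvPowerSeries.C c * τ' d = PowerSeries.subst Γ.toPowerSeries θ
          - PowerSeries.subst (X 0 : MvPowerSeries (Fin 2) (GaloisField p n)) θ
          - PowerSeries.subst (X 1 : MvPowerSeries (Fin 2) (GaloisField p n)) θ) := by
    intro d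
    by_cases hd : d.degree ≤ i
    · obtain ⟨θ, hθ0, hθ⟩ := coc_exact p n hn Γ hΓp (τ d + -(MvPowerSeries.C c * τ' d))
        ((hτ d hd).add ((hτ' d hd).Cmul c).neg)
        (by
          intro j hj1 hjn
          rw [cocN_add, cocN_neg, cocN_Cmul, hN' d hd, map_add, map_neg, PowerSeries.coeff_C_mul,
            map_sum, Finset.sum_eq_single j]
          · rw [PowerSeries.coeff_C_mul, PowerSeries.coeff_X_pow, if_pos rfl, mul_one, hxx,
              hy j d hd, mul_inv_cancel_left₀ hc0, add_neg_cancel]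
          · intro l _ hlj
            rw [PowerSeries.coeff_C_mul, PowerSeries.coeff_X_pow, if_neg, mul_zero]
            intro h
            exact hlj (Nat.pow_right_injective (Fact.out : p.Prime).two_le h).symm
          · intro hj
            exact absurd (Finset.mem_Ico.2 ⟨hj1, hjn⟩) hj)
      refine ⟨θ, hθ0, fun _ => ?_⟩
      have h2 := hθ (X 0 : MvPowerSeries (Fin 2) (GaloisField p n)) (X 1) (constantCoeff_X 0)
        (constantCoeff_X 1)
      have hXX : (![(X 0 : MvPowerSeries (Fin 2) (GaloisField p n)), X 1] :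
          Fin 2 → MvPowerSeries (Fin 2) (GaloisField p n)) = X := by
        funext i; fin_cases i <;> rfl
      rw [hXX, subst_self] at h2
      rw [sub_eq_add_neg]
      exact h2
    · exact ⟨0, map_zero _, fun h => absurd h hd⟩
  choose θ hθ0 hθ using hexact
  -- the new series
  have hmkS : ∀ l : ℕ, ∃ y ∈ IE p n i, ∀ d : Fin (n - 1) →₀ ℕ, d.degree ≤ i →
      lam p n i d y = PowerSeries.coeff l (θ d) := fun l =>
    exists_mkI i (fun d => PowerSeries.coeff l (θ d))
  choose z hzI hz using hmkS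
  let S : PowerSeries (E0 p n) := PowerSeries.mk fun l => if l = 0 then 0 else z l
  have hS0 : PowerSeries.constantCoeff S = 0 := by
    rw [← PowerSeries.coeff_zero_eq_constantCoeff_apply, PowerSeries.coeff_mk, if_pos rfl]
  have hcS : ∀ e : Unit →₀ ℕ, coeff e S = if e () = 0 then 0 else z (e ()) := by
    intro e
    have he : e = single () (e ()) := by ext; simp
    conv_lhs => rw [he]
    exact PowerSeries.coeff_mk _ _
  have hSJ : JV (IE p n i) S := by
    intro e
    rw [hcS]
    split_ifs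
    · exact (IE p n i).zero_mem
    · exact hzI _
  have hLS : ∀ d (hd : d.degree ≤ i), (sE p n hi d hd).L S = θ d := by
    intro d hd
    refine MvPowerSeries.ext (fun e => ?_)
    rw [Sx.coeff_L, hcS]
    have he : e = single () (e ()) := by ext; simp
    have h3 : coeff e (θ d) = PowerSeries.coeff (e ()) (θ d) := by
      conv_lhs => rw [he]
      rfl
    rw [h3]
    split_ifs with h4
    · rw [Sx.lam_zero, h4, PowerSeries.coeff_zero_eq_constantCoeff_apply, hθ0]
    · exact hz _ d hd
  refine ⟨x', G.toPowerSeries.subst ![h, S], fun j => by rw [hxx]; exact hyI j,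
    constantCoeff_pair h0 hS0 G.zero_constantCoeff, ?_, ?_⟩
  · have h5 : JV (IE p n i) (pt G (G.toPowerSeries.subst ![h, S]) - pt G h : G.Point Unit).val := by
      have : (pt G (G.toPowerSeries.subst ![h, S]) - pt G h : G.Point Unit) = pt G S := by
        rw [pt_add h0 hS0]; abel
      rw [this, pt_val hS0]
      exact hSJ
    rw [JV.psub_iff, pt_val (constantCoeff_pair h0 hS0 G.zero_constantCoeff), pt_val h0] at h5
    exact h5
  · have hd0 : (0 : Fin (n - 1) →₀ ℕ).degree ≤ i := by simp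
    have h6 := defU_change_c (sE p n hi 0 hd0) (F := F) (F' := F') (G := G) h0 hD hFF hres hS0 hSJ
    refine JV_succ h6.1 (fun d hd e => ?_)
    have h7 := (defU_change_c (sE p n hi d hd) (F := F) (F' := F') (G := G) h0 hD hFF hres hS0
      hSJ).2
    rw [hLS d hd] at h7
    have h8 : (sE p n hi d hd).L (defU F' G (G.toPowerSeries.subst ![h, S])).val = 0 := by
      rw [h7]
      have h9 : (sE p n hi d hd).L (defU F G h).val
          - MvPowerSeries.C ((sE p n hi d hd).res (PowerSeries.coeff 1 h))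
            * (sE p n hi d hd).L (tau F F').val = τ d - MvPowerSeries.C c * τ' d := by rw [hc]; rfl
      rw [h9, hθ d hd]
      show _ + (_ + _ - PowerSeries.subst Γ.toPowerSeries (θ d)) = 0
      ring
    have h10 := congrArg (coeff e) h8
    rw [map_zero] at h10
    exact h10


/-- a state of the approximation -/
structure LTStc (G : FormalGroup (E0 p n)) [G.IsComm] (i : ℕ) where
  x : ℕ → E0 p n
  h : PowerSeries (E0 p n)
  hx : ∀ j, x j ∈ IE p n 1
  h0 : PowerSeries.constantCoeff h = 0
  h1 : resE p n (PowerSeries.coeff 1 h) ≠ 0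
  hD : JV (IE p n i) (defU (hazF p (prm n x)) G h).val

theorem LTStc.next (hn : 1 ≤ n) {G : FormalGroup (E0 p n)} [G.IsComm] {i : ℕ} (hi : 1 ≤ i)
    (s : LTStc G i) : ∃ s' : LTStc G (i + 1), (∀ j, s'.x j - s.x j ∈ IE p n i) ∧
      JV (IE p n i) (s'.h - s.h) := by
  obtain ⟨x', h', a1, a2, a3, a4⟩ := step_c hn G hi s.x s.h s.hx s.h0 s.h1 s.hD
  refine ⟨⟨x', h', fun j => ?_, a2, ?_, a4⟩, a1, a3⟩
  · have := (IE p n 1).add_mem (IE_anti p n hi (a1 j)) (s.hx j)
    rwa [sub_add_cancel] at this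
  · have e : resE p n (PowerSeries.coeff 1 h') = resE p n (PowerSeries.coeff 1 s.h) := by
      apply res_of_IE hi
      rw [← map_sub]
      exact a3 _
    rw [e]
    exact s.h1

open Classical in
/-- the sequence of states -/
noncomputable def ltSeqc (hn : 1 ≤ n) {G : FormalGroup (E0 p n)} [G.IsComm] {i : ℕ} (hi : 1 ≤ i)
    (s : LTStc G i) : (t : ℕ) → LTStc G (i + t)
  | 0 => s
  | t + 1 => (LTStc.next hn (Nat.le_add_right_of_le hi) (ltSeqc hn hi s t)).choose

theorem exists_limit_c (hn : 1 ≤ n) (G : FormalGroup (E0 p n)) [G.IsComm] {i : ℕ} (hi : 1 ≤ i)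
    (x : ℕ → E0 p n) (h : PowerSeries (E0 p n)) (hx : ∀ j, x j ∈ IE p n 1)
    (h0 : PowerSeries.constantCoeff h = 0) (h1 : resE p n (PowerSeries.coeff 1 h) ≠ 0)
    (hD : JV (IE p n i) (defU (hazF p (prm n x)) G h).val) :
    ∃ (x' : ℕ → E0 p n) (h' : PowerSeries (E0 p n)),
      (∀ j, x' j - x j ∈ IE p n i) ∧ PowerSeries.constantCoeff h' = 0 ∧
      JV (IE p n i) (h' - h) ∧ defU (hazF p (prm n x')) G h' = 0 := by
  set s : (t : ℕ) → LTStc G (i + t) := ltSeqc hn hi ⟨x, h, hx, h0, h1, hD⟩ with hs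
  have hs1 : ∀ t, (∀ j, (s (t + 1)).x j - (s t).x j ∈ IE p n (i + t)) ∧
      JV (IE p n (i + t)) ((s (t + 1)).h - (s t).h) := fun t =>
    (LTStc.next hn (Nat.le_add_right_of_le hi) (s t)).choose_spec
  have hX : ∀ j, ∃ b, ∀ t, b - (s t).x j ∈ IE p n (i + t) := fun j =>
    IE_complete' i _ (fun t => (hs1 t).1 j)
  choose x' hx' using hX
  have hH : ∀ e : Unit →₀ ℕ, ∃ b, ∀ t, b - coeff e (s t).h ∈ IE p n (i + t) := fun e =>
    IE_complete' i _ (fun t => by
      have := (hs1 t).2 e
      rwa [map_sub] at this)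
  choose H hH' using hH
  obtain ⟨h', hh'⟩ : ∃ h' : PowerSeries (E0 p n), ∀ e, coeff e h' = H e := ⟨fun e => H e, fun _ => rfl⟩
  have hJ : ∀ t, JV (IE p n (i + t)) (h' - (s t).h) := fun t e => by
    rw [map_sub, hh']
    exact hH' e t
  have h0' : PowerSeries.constantCoeff h' = 0 := by
    apply IE_inf p n
    intro t
    have h2 := hJ t 0
    rw [map_sub] at h2
    have h3 : coeff 0 (s t).h = 0 := (s t).h0
    rw [h3, sub_zero] at h2
    exact IE_anti p n (by omega) h2
  refine ⟨x', h', fun j => hx' j 0, h0', hJ 0, ?_⟩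
  have hD' : ∀ t, JV (IE p n (i + t)) (defU (hazF p (prm n x')) G h').val := fun t =>
    defU_congr (s t).h0 h0' (hazF_sub_JV p _ (prm_sub_mem _ n fun j _ _ => hx' j t)) (hJ t) (s t).hD
  apply Subtype.ext
  show (defU (hazF p (prm n x')) G h').val = (0 : MvPowerSeries (Fin 2) (E0 p n))
  ext1 e
  rw [map_zero]
  exact IE_inf p n fun t => IE_anti p n (by omega) (hD' t e)


end Chai
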