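import Vale.Agent.Chai.FinalDefs

/-!
# P217 / LTactB: the Galois part of the action of the extended stabilizer group on `E_0`
-/

namespace Chai

open MvPowerSeries

variable {p : ℕ} [Fact p.Prime] {n : ℕ}

/-- the coefficientwise ring automorphism `W(σ)` of the Witt vectors -/
noncomputable def wEquiv (p : ℕ) [Fact p.Prime] {k : Type*} [CommRing k] (σ : k ≃+* k) :
    WittVector p k ≃+* WittVector p k :=
  RingEquiv.ofRingHom (WittVector.map (σ : k →+* k)) (WittVector.map (σ.symm : k →+* k))
    (by ext x i; simp [WittVector.map_coeff])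
    (by ext x i; simp [WittVector.map_coeff])

theorem wEquiv_coeff {k : Type*} [CommRing k] (σ : k ≃+* k) (x : WittVector p k) (i : ℕ) :
    (wEquiv p σ x).coeff i = σ (x.coeff i) := rfl

/-- the automorphism of `E_0` induced by `W(σ)` on the coefficients; it fixes the `u_j` -/
noncomputable def tauE (σ : GaloisField p n ≃+* GaloisField p n) : E0 p n ≃+* E0 p n :=
  RingEquiv.ofRingHom
    (MvPowerSeries.map ((wEquiv p σ : WittVector p (GaloisField p n) →+* _)))
    (MvPowerSeries.map (((wEquiv p σ).symm : WittVector p (GaloisField p n) →+* _)))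
    (by
      rw [← MvPowerSeries.map_comp, RingEquiv.comp_symm, MvPowerSeries.map_id])
    (by
      rw [← MvPowerSeries.map_comp, RingEquiv.symm_comp, MvPowerSeries.map_id])

theorem tauE_apply (σ : GaloisField p n ≃+* GaloisField p n) (a : E0 p n) :
    tauE σ a = MvPowerSeries.map ((wEquiv p σ : WittVector p (GaloisField p n) →+* _)) a := rfl

theorem resE_tauE (σ : GaloisField p n ≃+* GaloisField p n) (a : E0 p n) :
    resE p n (tauE σ a) = σ (resE p n a) := by
  rw [tauE_apply]
  simp only [resE, RingHom.comp_apply, MvPowerSeries.constantCoeff_map, RingHom.coe_coe]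
  exact wEquiv_coeff σ _ 0

theorem tauE_uE (σ : GaloisField p n ≃+* GaloisField p n) (j : ℕ) :
    tauE σ (uE p n j) = uE p n j := by
  rw [tauE_apply, uE]
  split_ifs with h
  · rw [MvPowerSeries.map_X]
  · rw [map_zero]

theorem tauE_prm (σ : GaloisField p n ≃+* GaloisField p n) (j : ℕ) :
    tauE σ (prm n (uE p n) j) = prm n (uE p n) j := by
  unfold prm
  split_ifs
  · exact tauE_uE σ j
  · exact map_one _
  · exact map_zero _

theorem univF_map_tauE (σ : GaloisField p n ≃+* GaloisField p n) :
    (univF p n).map (tauE σ : E0 p n →+* E0 p n) = univF p n := by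
  rw [univF, hazF_map]
  congr 1
  funext j
  exact tauE_prm σ j

/-- the action of `(γ, σ)` is the action of `(γ, 1)` after the Galois action -/
theorem acts_of_acts_one (σ : GaloisField p n ≃+* GaloisField p n)
    {γ : PowerSeries (GaloisField p n)} {φ : E0 p n ≃+* E0 p n}
    (h : Acts (univF p n) (RingEquiv.refl _) γ φ) :
    Acts (univF p n) σ γ ((tauE σ).trans φ) := by
  obtain ⟨h1, ψ, h2, h3⟩ := h
  refine ⟨fun a => ?_, ψ, ?_, h3⟩
  · rw [RingEquiv.trans_apply, h1]
    exact resE_tauE σ a
  · have : ((univF p n).map (((tauE σ).trans φ : E0 p n ≃+* E0 p n) : E0 p n →+* E0 p n)) =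
        (univF p n).map (φ : E0 p n →+* E0 p n) := by
      conv_rhs => rw [← univF_map_tauE σ]
      rw [fg_map_map]
      rfl
    rw [this]
    exact h2

/-- conversely: dividing out the Galois action -/
theorem acts_one_of_acts (σ : GaloisField p n ≃+* GaloisField p n)
    {γ : PowerSeries (GaloisField p n)} {φ : E0 p n ≃+* E0 p n}
    (h : Acts (univF p n) σ γ φ) :
    Acts (univF p n) (RingEquiv.refl _) γ ((tauE σ).symm.trans φ) := by
  obtain ⟨h1, ψ, h2, h3⟩ := h
  refine ⟨fun a => ?_, ψ, ?_, h3⟩
  · rw [RingEquiv.trans_apply, h1, ← resE_tauE, RingEquiv.apply_symm_apply]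
    rfl
  · have : ((univF p n).map (((tauE σ).symm.trans φ : E0 p n ≃+* E0 p n) : E0 p n →+* E0 p n)) =
        (univF p n).map (φ : E0 p n →+* E0 p n) := by
      conv_lhs => rw [← univF_map_tauE σ]
      rw [fg_map_map]
      congr 1
      ext1 a
      simp
    rw [this]
    exact h2

/-- existence for all `σ` from existence for `σ = 1` -/
theorem exists_acts_of_one {γ : PowerSeries (GaloisField p n)}
    (h : ∃ φ, Acts (univF p n) (RingEquiv.refl _) γ φ)
    (σ : GaloisField p n ≃+* GaloisField p n) : ∃ φ, Acts (univF p n) σ γ φ := by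
  obtain ⟨φ, hφ⟩ := h
  exact ⟨_, acts_of_acts_one σ hφ⟩

/-- uniqueness for all `σ` from uniqueness for `σ = 1` -/
theorem acts_unique_of_one {γ : PowerSeries (GaloisField p n)}
    (h : ∀ φ φ' : E0 p n ≃+* E0 p n, Acts (univF p n) (RingEquiv.refl _) γ φ →
      Acts (univF p n) (RingEquiv.refl _) γ φ' → φ = φ')
    {σ : GaloisField p n ≃+* GaloisField p n} {φ φ' : E0 p n ≃+* E0 p n}
    (h1 : Acts (univF p n) σ γ φ) (h2 : Acts (univF p n) σ γ φ') : φ = φ' := by
  have := h _ _ (acts_one_of_acts σ h1) (acts_one_of_acts σ h2)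
  ext1 a
  have h3 := congrArg (fun e : E0 p n ≃+* E0 p n => e (tauE σ a)) this
  simpa using h3

end Chai
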