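import Vale.Agent.Chai.LTactA

/-!
# P217 / LTactR: rigidity of lifts, inverses, continuous endomorphisms of `E_0`

OWNER: helper9
-/

namespace Chai

open MvPowerSeries Finsupp

section tau

variable {k : Type} [Field k]

theorem cocN_congr {Γ : FormalGroup k} {θ : PowerSeries k}
    (h0 : PowerSeries.constantCoeff θ = 0) (m : ℕ) :
    cocN Γ (PowerSeries.subst Γ.toPowerSeries θ
        - PowerSeries.subst (X 0 : MvPowerSeries (Fin 2) k) θ
        - PowerSeries.subst (X 1 : MvPowerSeries (Fin 2) k) θ) m
      = θ.subst (mulPS Γ m) - m • θ := by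
  induction m with
  | zero =>
    unfold cocN
    rw [Finset.range_zero, Finset.sum_empty, zero_smul, sub_zero]
    exact (subst_zero_eq h0).symm
  | succ m ih =>
    have hm := constantCoeff_mulPS Γ m
    have hX := PowerSeries.constantCoeff_X (R := k)
    have hs := hasSubst_pair hm hX
    have e : cocN Γ (PowerSeries.subst Γ.toPowerSeries θ
        - PowerSeries.subst (X 0 : MvPowerSeries (Fin 2) k) θ
        - PowerSeries.subst (X 1 : MvPowerSeries (Fin 2) k) θ) (m + 1)
        = cocN Γ (PowerSeries.subst Γ.toPowerSeries θ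
        - PowerSeries.subst (X 0 : MvPowerSeries (Fin 2) k) θ
        - PowerSeries.subst (X 1 : MvPowerSeries (Fin 2) k) θ) m +
        MvPowerSeries.subst ![mulPS Γ m, (PowerSeries.X : PowerSeries k)]
          (PowerSeries.subst Γ.toPowerSeries θ
        - PowerSeries.subst (X 0 : MvPowerSeries (Fin 2) k) θ
        - PowerSeries.subst (X 1 : MvPowerSeries (Fin 2) k) θ) := by
      unfold cocN
      rw [Finset.sum_range_succ]
    rw [e, ih, subst_sub hs, subst_sub hs,
      subst1_subst Γ.zero_constantCoeff hs, subst1_subst (constantCoeff_X _) hs,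
      subst1_subst (constantCoeff_X _) hs, subst_X hs, subst_X hs]
    have e1 : θ.subst (![mulPS Γ m, (PowerSeries.X : PowerSeries k)] 1) = θ :=
      congrFun (MvPowerSeries.subst_self (R := k) (σ := Unit)) θ
    have e2 : θ.subst (Γ.toPowerSeries.subst ![mulPS Γ m, (PowerSeries.X : PowerSeries k)])
      = θ.subst (mulPS Γ (m + 1)) := rfl
    have e3 : θ.subst (![mulPS Γ m, (PowerSeries.X : PowerSeries k)] 0) = θ.subst (mulPS Γ m) := rfl
    rw [e1, e2, e3, succ_nsmul]
    ring

end tau

variable {p : ℕ} [Fact p.Prime] {n : ℕ}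

theorem defU_X_self {A : Type*} [CommRing A] {F : FormalGroup A} [F.IsComm] :
    defU F F (PowerSeries.X : PowerSeries A) = 0 := by
  have h := tau_eq_neg (F := F) (F' := F)
  have h2 : tau F F = 0 := by
    unfold tau
    exact sub_self _
  rw [h2] at h
  exact neg_eq_zero.1 h.symm

theorem p_nsmul_ps (f : PowerSeries (GaloisField p n)) : p • f = 0 := by
  ext m
  rw [map_nsmul, nsmul_eq_mul, CharP.cast_eq_zero, zero_mul, map_zero]

/-- one step of the rigidity -/
theorem rigid_step (hn : 1 ≤ n) {i : ℕ} (hi : 1 ≤ i) {x : ℕ → E0 p n} {S : PowerSeries (E0 p n)}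
    (hx : ∀ j, 1 ≤ j → j < n → x j - uE p n j ∈ IE p n i)
    (hS0 : PowerSeries.constantCoeff S = 0) (hSJ : JV (IE p n i) S)
    (hD : defU (hazF p (prm n x)) (univF p n)
      ((univF p n).toPowerSeries.subst ![(PowerSeries.X : PowerSeries (E0 p n)), S]) = 0) :
    (∀ j, 1 ≤ j → j < n → x j - uE p n j ∈ IE p n (i + 1)) ∧ JV (IE p n (i + 1)) S := by
  classical
  have hres : Function.Surjective (resE p n) := resE_surjective p n
  set F := univF p n with hF
  set F' := hazF p (prm n x) with hF'
  set Γ := F.map (resE p n) with hΓ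
  have hFF : JV (IE p n i) (F'.toPowerSeries - F.toPowerSeries) :=
    hazF_sub_JV p _ (prm_sub_mem _ n hx)
  have hΓ' : Γ = hazF p (prm n (0 : ℕ → GaloisField p n)) := univF_map_res p n
  have hΓp : mulPS Γ p = (PowerSeries.X : PowerSeries (GaloisField p n)) ^ p ^ n := by
    rw [hΓ']
    exact mulPS_honda p n hn
  have hX1 : resE p n (PowerSeries.coeff 1 (PowerSeries.X : PowerSeries (E0 p n))) = 1 := by
    rw [PowerSeries.coeff_one_X, map_one]
  have hD0 : ∀ d (hd : d.degree ≤ i), JV (sE p n hi d hd).I
      (defU F F (PowerSeries.X : PowerSeries (E0 p n))).val := by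
    intro d hd
    rw [defU_X_self]
    exact JV.zero
  have hres0 : ∀ j, resE p n (uE p n j) = 0 := by
    intro j
    have := uE_mem_IE p n j
    rw [IE_one] at this
    exact this
  -- the basic identity
  have key : ∀ d (hd : d.degree ≤ i), (sE p n hi d hd).L (tau F F').val =
      PowerSeries.subst (X 0 : MvPowerSeries (Fin 2) (GaloisField p n)) ((sE p n hi d hd).L S) +
          PowerSeries.subst (X 1 : MvPowerSeries (Fin 2) (GaloisField p n))
            ((sE p n hi d hd).L S) -
          PowerSeries.subst Γ.toPowerSeries ((sE p n hi d hd).L S) := by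
    intro d hd
    have h := (defU_change (sE p n hi d hd) (F := F) (F' := F') (G := F)
      PowerSeries.constantCoeff_X hX1 (hD0 d hd) hFF hres hS0 hSJ).2
    rw [hD, defU_X_self] at h
    have e0 : (sE p n hi d hd).L (0 : F.Point (Fin 2)).val = 0 := (sE p n hi d hd).L_zero
    rw [e0] at h
    have h2 := sub_eq_zero.1 (show (sE p n hi d hd).L (tau F F').val - (
      PowerSeries.subst (X 0 : MvPowerSeries (Fin 2) (GaloisField p n)) ((sE p n hi d hd).L S) +
          PowerSeries.subst (X 1 : MvPowerSeries (Fin 2) (GaloisField p n))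
            ((sE p n hi d hd).L S) -
          PowerSeries.subst Γ.toPowerSeries ((sE p n hi d hd).L S)) = 0 by
      rw [zero_sub] at h
      have h3 := congrArg Neg.neg h
      rw [neg_zero, neg_add, neg_neg] at h3
      rw [sub_eq_add_neg]
      exact h3.symm)
    exact h2
  have hθ0 : ∀ d (hd : d.degree ≤ i), PowerSeries.constantCoeff ((sE p n hi d hd).L S) = 0 := by
    intro d hd
    have h1 : coeff 0 S = 0 := hS0
    show coeff 0 ((sE p n hi d hd).L S) = 0
    rw [Sx.coeff_L, h1, Sx.lam_zero]
  -- norms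
  have hN : ∀ d (hd : d.degree ≤ i), ∀ j, 1 ≤ j → j < n → lam p n i d (x j - uE p n j) = 0 := by
    intro d hd j hj1 hjn
    have h1 := cocN_haz p (sE p n hi d hd) hres hn (x := uE p n) (x' := x)
      (fun j _ _ => hres0 j) hx
    have h2 : cocN Γ ((sE p n hi d hd).L (tau F F').val) p
        = -(PowerSeries.subst (mulPS Γ p) ((sE p n hi d hd).L S)
          - p • ((sE p n hi d hd).L S)) := by
      rw [key d hd, ← cocN_congr (hθ0 d hd) p, ← cocN_neg]
      congr 1
      ring
    have h3 : cocN Γ ((sE p n hi d hd).L (tau F F').val) p = ∑ j ∈ Finset.Ico 1 n,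
      PowerSeries.C ((sE p n hi d hd).lam (x j - uE p n j)) *
        (PowerSeries.X : PowerSeries (GaloisField p n)) ^ p ^ j := h1
    rw [h2, hΓp] at h3
    have h4 := congrArg (PowerSeries.coeff (p ^ j)) h3
    rw [map_sum, Finset.sum_eq_single j] at h4
    · rw [PowerSeries.coeff_C_mul, PowerSeries.coeff_X_pow, if_pos rfl, mul_one] at h4
      have h5 : (sE p n hi d hd).lam (x j - uE p n j) = lam p n i d (x j - uE p n j) := rfl
      rw [← h5, ← h4]
      have h6 : (p • ((sE p n hi d hd).L S) : PowerSeries (GaloisField p n)) = 0 :=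
        p_nsmul_ps _
      rw [h6, sub_zero, map_neg, PowerSeries.coeff_subst_X_pow (pow_ne_zero _
        (Fact.out : p.Prime).ne_zero), if_neg, neg_zero]
      intro hdvd
      have := Nat.le_of_dvd (pow_pos (Fact.out : p.Prime).pos _) hdvd
      exact absurd this (not_le.2 (Nat.pow_lt_pow_right (Fact.out : p.Prime).one_lt hjn))
    · intro l _ hlj
      rw [PowerSeries.coeff_C_mul, PowerSeries.coeff_X_pow, if_neg, mul_zero]
      intro h
      exact hlj (Nat.pow_right_injective (Fact.out : p.Prime).two_le h).symm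
    · intro hj
      exact absurd (Finset.mem_Ico.2 ⟨hj1, hjn⟩) hj
  have hx' : ∀ j, 1 ≤ j → j < n → x j - uE p n j ∈ IE p n (i + 1) := fun j h1 h2 =>
    mem_IE_succ.2 ⟨hx j h1 h2, fun d hd => hN d hd j h1 h2⟩
  refine ⟨hx', ?_⟩
  have hFF' : JV (IE p n (i + 1)) (F'.toPowerSeries - F.toPowerSeries) :=
    hazF_sub_JV p _ (prm_sub_mem _ n hx')
  refine JV_succ hSJ (fun d hd e => ?_)
  have h1 : (sE p n hi d hd).L (tau F F').val = 0 := by
    ext1 e
    rw [Sx.coeff_L, map_zero]
    have h2 := JV_tau hFF' e
    exact (mem_IE_succ.1 h2).2 d hd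
  have h2 := key d hd
  rw [h1] at h2
  have h3 := cocN_congr (hθ0 d hd) (Γ := Γ) p
  have h4 : PowerSeries.subst Γ.toPowerSeries ((sE p n hi d hd).L S)
        - PowerSeries.subst (X 0 : MvPowerSeries (Fin 2) (GaloisField p n))
          ((sE p n hi d hd).L S)
        - PowerSeries.subst (X 1 : MvPowerSeries (Fin 2) (GaloisField p n))
          ((sE p n hi d hd).L S) = 0 := by
    rw [sub_sub, sub_eq_zero]
    exact (sub_eq_zero.1 h2.symm).symm
  have h5 : (p • ((sE p n hi d hd).L S) : PowerSeries (GaloisField p n)) = 0 := p_nsmul_ps _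
  have h6 : cocN Γ (0 : MvPowerSeries (Fin 2) (GaloisField p n)) p = 0 := by
    unfold cocN
    refine Finset.sum_eq_zero fun s _ => ?_
    have hs := hasSubst_pair (constantCoeff_mulPS Γ s) (PowerSeries.constantCoeff_X
      (R := GaloisField p n))
    rw [← coe_substAlgHom hs, map_zero]
  rw [h4, h6, h5, sub_zero, hΓp] at h3
  have h7 : (sE p n hi d hd).L S = 0 := by
    refine PowerSeries.ext fun m => ?_
    have h8 := congrArg (PowerSeries.coeff (p ^ n * m)) h3
    rw [map_zero, PowerSeries.coeff_subst_X_pow (pow_ne_zero _ (Fact.out : p.Prime).ne_zero),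
      if_pos (Dvd.intro _ rfl), Nat.mul_div_cancel_left _
      (pow_pos (Fact.out : p.Prime).pos _)] at h8
    rw [map_zero]
    exact h8.symm
  have h9 := congrArg (coeff e) h7
  rw [map_zero, Sx.coeff_L] at h9
  exact h9

theorem defU_of_isHom {A : Type*} [CommRing A] {F G : FormalGroup A} [F.IsComm] [G.IsComm]
    {h : PowerSeries A} (hh : IsHom h F G) : defU F G h = 0 := by
  have e0 := constantCoeff_X (R := A) (0 : Fin 2)
  have e1 := constantCoeff_X (R := A) (1 : Fin 2)
  have eF := constantCoeff_pair e0 e1 F.zero_constantCoeff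
  unfold defU defect
  rw [sub_eq_zero, ← pt_add (ccs1 e0 hh.1) (ccs1 e1 hh.1)]
  congr 1
  have hXX : (![(X 0 : MvPowerSeries (Fin 2) A), X 1] : Fin 2 → MvPowerSeries (Fin 2) A) = X := by
    funext i; fin_cases i <;> rfl
  rw [hXX, subst_self]
  exact hh.2.symm

/-- rigidity: a lift of the identity is the identity -/
theorem rigid (hn : 1 ≤ n) {x : ℕ → E0 p n} {ψ : PowerSeries (E0 p n)}
    (hx : ∀ j, 1 ≤ j → j < n → x j ∈ IE p n 1)
    (hψ : IsHom ψ (hazF p (prm n x)) (univF p n))
    (hres : ψ.map (resE p n) = (PowerSeries.X : PowerSeries (GaloisField p n))) :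
    (∀ j, 1 ≤ j → j < n → x j = uE p n j) ∧ ψ = PowerSeries.X := by
  have hX := PowerSeries.constantCoeff_X (R := E0 p n)
  obtain ⟨z, hz⟩ : ∃ z : (univF p n).Point Unit, z = pt (univF p n) ψ
    - pt (univF p n) (PowerSeries.X : PowerSeries (E0 p n)) := ⟨_, rfl⟩
  have hz0 : constantCoeff z.val = 0 := by
    rw [hz]
    exact cc_sub (cc_pt hψ.1) (cc_pt hX)
  have hadd : (univF p n).toPowerSeries.subst ![(PowerSeries.X : PowerSeries (E0 p n)), z.val] = ψ := by
    have h1 : pt (univF p n) (PowerSeries.X : PowerSeries (E0 p n)) + z = pt (univF p n) ψ := by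
      rw [hz]; abel
    have h2 := congrArg Subtype.val h1
    rw [val_add, pt_val hX, pt_val hψ.1] at h2
    exact h2
  have hJ1 : JV (IE p n 1) z.val := by
    rw [hz, JV.psub_iff, pt_val hψ.1, pt_val hX]
    intro e
    have h1 := congrArg (coeff e) hres
    rw [IE_one, mE, RingHom.mem_ker, map_sub, map_sub, sub_eq_zero]
    have h2 : resE p n (coeff e ψ) = coeff e (ψ.map (resE p n)) := rfl
    have h3 : resE p n (coeff e (PowerSeries.X : PowerSeries (E0 p n)))
        = coeff e ((PowerSeries.X : PowerSeries (E0 p n)).map (resE p n)) := rfl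
    rw [h2, h3, hres, PowerSeries.map_X]
  have hD := defU_of_isHom hψ
  have hall : ∀ i, 1 ≤ i → (∀ j, 1 ≤ j → j < n → x j - uE p n j ∈ IE p n i) ∧
      JV (IE p n i) z.val := by
    intro i hi
    induction i, hi using Nat.le_induction with
    | base =>
      exact ⟨fun j h1 h2 => (IE p n 1).sub_mem (hx j h1 h2) (uE_mem_IE p n j), hJ1⟩
    | succ i hi ih =>
      exact rigid_step hn hi ih.1 hz0 ih.2 (by rw [hadd]; exact hD)
  refine ⟨fun j h1 h2 => ?_, ?_⟩
  · rw [← sub_eq_zero]
    refine IE_inf p n fun i => ?_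
    exact IE_anti p n (Nat.le_succ i) ((hall (i + 1) (by omega)).1 j h1 h2)
  · have hz00 : z.val = 0 := by
      refine MvPowerSeries.ext (fun e => ?_)
      rw [map_zero]
      exact IE_inf p n fun i => IE_anti p n (Nat.le_succ i) ((hall (i + 1) (by omega)).2 e)
    rw [hz00] at hadd
    rw [← hadd]
    exact (univF p n).add_zero (PowerSeries.HasSubst.X')

section aut

variable {x : Fin (n - 1) → E0 p n}

/-- the continuous endomorphism `u_j ↦ x_j` for `x_j` in the maximal ideal -/
theorem exists_endx (hx1 : ∀ j, x j ∈ IE p n 1) :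
    ∃ F : E0 p n →+* E0 p n, (∀ j, F (X j) = x j) ∧
      (∀ w, F (MvPowerSeries.C w) = MvPowerSeries.C w) ∧ ∀ i a, a ∈ IE p n i → F a ∈ IE p n i := by
  choose f hf using fun a => IE_complete p n (fun N => TN x N a) (TN_succ_sub_mem hx1 a)
  have huniq : ∀ a b : E0 p n, (∀ N, b - TN x N a ∈ IE p n N) → f a = b := by
    intro a b hb
    refine sub_eq_zero.mp (IE_inf p n fun N => ?_)
    have := sub_mem (hf a N) (hb N)
    simpa using this
  have hTadd : ∀ N a b, TN x N (a + b) = TN x N a + TN x N b := by
    intro N a b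
    unfold TN
    rw [map_add, map_add]
  have hadd : ∀ a b, f (a + b) = f a + f b := by
    intro a b
    refine huniq _ _ fun N => ?_
    rw [hTadd, add_sub_add_comm]
    exact add_mem (hf a N) (hf b N)
  have hC : ∀ w, f (MvPowerSeries.C w) = MvPowerSeries.C w := by
    intro w
    refine huniq _ _ fun N => ?_
    rcases Nat.eq_zero_or_pos N with h0 | h0
    · rw [h0, IE_zero]; trivial
    · have : (MvPowerSeries.C w : E0 p n).truncTotal N = MvPolynomial.C w := by
        classical
        ext d
        rw [coeff_truncTotal_eq_ite, MvPolynomial.coeff_C, coeff_C]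
        by_cases hd : d = 0
        · rw [if_pos hd, if_pos hd.symm, hd, map_zero, if_pos h0]
        · rw [if_neg hd, if_neg (Ne.symm hd)]
          split_ifs <;> rfl
      unfold TN
      rw [this, evx_C, sub_self]
      exact zero_mem _
  have hX : ∀ j, f (X j) = x j := by
    intro j
    refine huniq _ _ fun N => ?_
    rcases lt_or_ge 1 N with h0 | h0
    · have : (X j : E0 p n).truncTotal N = MvPolynomial.X j := by
        classical
        ext d
        rw [coeff_truncTotal_eq_ite, MvPolynomial.coeff_X, coeff_X]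
        by_cases hd : d = Finsupp.single j 1
        · rw [if_pos hd, if_pos hd.symm, hd, Finsupp.degree_single, if_pos h0]
        · rw [if_neg hd, if_neg (Ne.symm hd)]
          split_ifs <;> rfl
      unfold TN
      rw [this, evx_X, sub_self]
      exact zero_mem _
    · refine IE_anti p n h0 (sub_mem (hx1 j) ?_)
      unfold TN
      refine evx_mem hx1 _ fun d => dvd_truncTotal (X_mem_IE p n j) N d
  have hmul : ∀ a b, f (a * b) = f a * f b := by
    intro a b
    refine huniq _ _ fun N => ?_
    have e1 : TN x N (a * b) - TN x N a * TN x N b ∈ IE p n N := by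
      unfold TN
      rw [← map_mul, ← map_sub]
      refine evx_mem hx1 _ fun d => ?_
      rcases lt_or_ge d.degree N with h | h
      · rw [MvPolynomial.coeff_sub, coeff_truncTotal_mul_truncTotal_eq_coeff_mul _ _ h,
          coeff_truncTotal _ h, sub_self]
        exact dvd_zero _
      · rw [Nat.sub_eq_zero_of_le h, pow_zero]
        exact one_dvd _
    have e2 : f a * f b - TN x N (a * b) = (f a - TN x N a) * f b + TN x N a * (f b - TN x N b) -
        (TN x N (a * b) - TN x N a * TN x N b) := by ring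
    rw [e2]
    exact sub_mem (add_mem (Ideal.mul_mem_right _ _ (hf a N)) (Ideal.mul_mem_left _ _ (hf b N))) e1
  have hone : f 1 = 1 := by
    have := hC 1
    rwa [map_one] at this
  have hzero : f 0 = 0 := by
    have := hC 0
    rwa [map_zero] at this
  obtain ⟨F, hF⟩ : ∃ F : E0 p n →+* E0 p n, ∀ a, F a = f a :=
    ⟨{ toFun := f, map_one' := hone, map_mul' := hmul, map_zero' := hzero, map_add' := hadd },
      fun a => rfl⟩
  refine ⟨F, fun j => by rw [hF]; exact hX j, fun w => by rw [hF]; exact hC w, fun i a ha => ?_⟩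
  have h1 := hf a i
  have h2 : TN x i a ∈ IE p n i := evx_mem hx1 _ fun d => dvd_truncTotal ha i d
  have h3 := add_mem h1 h2
  rw [sub_add_cancel] at h3
  rw [hF]
  exact h3

/-- a continuous endomorphism is determined by the images of the `u_j` -/
theorem end_ext {F : E0 p n →+* E0 p n} (hX : ∀ j, F (X j) = X j)
    (hC : ∀ w, F (MvPowerSeries.C w) = MvPowerSeries.C w)
    (hc : ∀ i a, a ∈ IE p n i → F a ∈ IE p n i) (a : E0 p n) : F a = a := by
  have hpoly : ∀ P : MvPolynomial (Fin (n - 1)) (WittVector p (GaloisField p n)),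
      F (P : E0 p n) = (P : E0 p n) := by
    intro P
    induction P using MvPolynomial.induction_on with
    | C w => rw [MvPolynomial.coe_C]; exact hC w
    | add P Q hP hQ => rw [MvPolynomial.coe_add, map_add, hP, hQ]
    | mul_X P j hP => rw [MvPolynomial.coe_mul, MvPolynomial.coe_X, map_mul, hP, hX]
  refine sub_eq_zero.mp (IE_inf p n fun N => ?_)
  have e3 : a - (a.truncTotal N : E0 p n) ∈ IE p n N := by
    intro d
    rw [map_sub, MvPolynomial.coeff_coe]
    rcases lt_or_ge d.degree N with h | h
    · rw [coeff_truncTotal _ h, sub_self]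
      exact dvd_zero _
    · rw [Nat.sub_eq_zero_of_le h, pow_zero]
      exact one_dvd _
  have e4 := hc N _ e3
  rw [map_sub, hpoly] at e4
  have e5 := sub_mem e4 e3
  rwa [sub_sub_sub_cancel_right] at e5

end aut

end Chai
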